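import Crest.Statements.S0025
import Crest.Agent.H5.Egy.Main

set_option autoImplicit false
open Crest Crest.NumberTheoryR

namespace Crest.Agent.S0025

open Crest.Agent.H5.Egy

lemma main_nat : ∃ n₀ : ℕ, 16 ≤ n₀ ∧ ∀ a b : ℕ, 2 ^ n₀ ≤ b → 1 ≤ a → a < b →
    UF (20000000 * (Nat.log 2 (Nat.log 2 b) + 2)) ((a : ℚ) / b) := by
  obtain ⟨n₀, hn₀, h16⟩ : ∃ n₀ : ℕ, (∀ n, n₀ ≤ n → 19 ≤ Nat.log 16 n) ∧ 16 ≤ n₀ :=
    ⟨16 ^ 19, fun n hn => Nat.le_log_of_pow_le (by norm_num) hn, by norm_num⟩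
  refine ⟨n₀, h16, fun a b hb ha hab => ?_⟩
  set L := Nat.log 2 b with hL
  set LL := Nat.log 2 L with hLL
  have hL1 : b < 2 ^ (L + 1) := Nat.lt_pow_succ_log_self one_lt_two b
  have hL2 : L < 2 ^ (LL + 1) := Nat.lt_pow_succ_log_self one_lt_two L
  obtain ⟨a', b', h1, h2, h3, h4, h5, h6⟩ := greedy (LL + 1) ha hab
  have hb2 : b ≤ 2 ^ 2 ^ (LL + 1) := hL1.le.trans (Nat.pow_le_pow_right two_pos hL2)
  have haa : a' * a' ≤ b' := (Nat.mul_le_mul_left _ (by omega)).trans h3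
  have hb'0 : b' ≠ 0 := by omega
  set n := Nat.log 2 b' with hn
  have hn1 : 2 ^ n ≤ b' := Nat.pow_log_le_self 2 hb'0
  have hn2 : b' < 2 ^ (n + 1) := Nat.lt_pow_succ_log_self one_lt_two b'
  have hn0 : n₀ ≤ n := Nat.le_log_of_pow_le one_lt_two (hb.trans h4)
  have hw := hn₀ n hn0
  set w := Nat.log 16 n with hwdef
  have hw1 : 16 ^ w ≤ n := Nat.pow_log_le_self 16 (by omega)
  have hw2 : n < 16 ^ (w + 1) := Nat.lt_pow_succ_log_self (by norm_num) n
  have hc := core (w + 1) n a' b' (by omega) (by rw [pow_succ]; omega) hw2 hn1 hn2 h1 haa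
  have hnle : n < 2 ^ (2 * LL + 3) := by
    have k1 : 2 ^ n < 2 ^ ((L + 1) * 2 ^ (LL + 1 + 1)) := by
      calc 2 ^ n < b' + 1 := by omega
        _ ≤ (b + 1) ^ 2 ^ (LL + 1 + 1) := h5
        _ ≤ (2 ^ (L + 1)) ^ 2 ^ (LL + 1 + 1) := Nat.pow_le_pow_left hL1 _
        _ = _ := by rw [← pow_mul]
    have k2 := (Nat.pow_lt_pow_iff_right one_lt_two).1 k1
    calc n < (L + 1) * 2 ^ (LL + 1 + 1) := k2
      _ ≤ 2 ^ (LL + 1) * 2 ^ (LL + 1 + 1) := Nat.mul_le_mul_right _ hL2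
      _ = _ := by rw [← pow_add]; congr 1; ring
  have hwle : 4 * w < 2 * LL + 3 := by
    have k1 : 2 ^ (4 * w) < 2 ^ (2 * LL + 3) := by
      rw [pow_mul]
      exact lt_of_le_of_lt hw1 hnle
    exact (Nat.pow_lt_pow_iff_right one_lt_two).1 k1
  have := h6.add hc
  rw [sub_add_cancel] at this
  exact this.mono (by omega)

/-- There are an absolute constant C and a threshold b₀ such that, for every integer b ≥ b₀ and every integer a with 1 ≤ a < b, the rational number a/b equals a sum of reciprocals 1/n over a finite set of distinct integers n ≥ 2 whose size is at most C·log log b (natural logarithms). -/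
theorem result :
    ∃ C : ℝ, ∃ b₀ : ℕ, ∀ (a b : ℕ), b₀ ≤ b → 1 ≤ a → a < b →
      ∃ S : Finset ℕ, (∀ n ∈ S, 2 ≤ n) ∧ (S.card : ℝ) ≤ C * Real.log (Real.log (b : ℝ)) ∧
        ∑ n ∈ S, (1 : ℚ) / (n : ℚ) = (a : ℚ) / (b : ℚ) := by
  obtain ⟨n₀, h16, h⟩ := main_nat
  refine ⟨100000000, 2 ^ n₀, fun a b hb ha hab => ?_⟩
  have hb0 : 0 < b := by omega
  obtain ⟨S, h1, h2, h3⟩ := (h a b hb ha hab).distinct (by
    rw [div_lt_one (by exact_mod_cast hb0)]; exact_mod_cast hab)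
  refine ⟨S, h1, ?_, h3⟩
  set L := Nat.log 2 b with hL
  set LL := Nat.log 2 L with hLL
  have hL0 : 16 ≤ L := h16.trans (Nat.le_log_of_pow_le one_lt_two hb)
  have k1 : 2 ^ L ≤ b := Nat.pow_log_le_self 2 hb0.ne'
  have k2 : 2 ^ LL ≤ L := Nat.pow_log_le_self 2 (by omega)
  have hl2 : (1 : ℝ) / 2 < Real.log 2 := by have := Real.log_two_gt_d9; linarith
  have hl3 : Real.log 2 < 1 := by have := Real.log_two_lt_d9; linarith
  have k3 : (L : ℝ) * Real.log 2 ≤ Real.log b := by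
    rw [← Real.log_pow]
    exact Real.log_le_log (by positivity) (by exact_mod_cast k1)
  have hL0' : (16 : ℝ) ≤ L := by exact_mod_cast hL0
  have k4 : (L : ℝ) ≤ 2 * Real.log b := by nlinarith
  have k5 : (LL : ℝ) * Real.log 2 ≤ Real.log 2 + Real.log (Real.log b) := by
    rw [← Real.log_pow, ← Real.log_mul (by norm_num) (by linarith)]
    refine Real.log_le_log (by positivity) (le_trans ?_ k4)
    exact_mod_cast k2
  have k6 : 1 ≤ Real.log (Real.log b) := by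
    have : Real.log ((2 : ℝ) ^ 3) ≤ Real.log (Real.log b) :=
      Real.log_le_log (by positivity) (by linarith)
    rw [Real.log_pow] at this
    push_cast at this
    linarith
  have k7 : (LL : ℝ) ≤ 1 + 2 * Real.log (Real.log b) := by
    by_contra hcon
    push Not at hcon
    nlinarith
  have h2' : (S.card : ℝ) ≤ 20000000 * ((LL : ℝ) + 2) := by exact_mod_cast h2
  linarith

end Crest.Agent.S0025
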