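import Crest.Statements.S0069
import Crest.Agent.H1.BorNerve

set_option autoImplicit false
open Crest Crest.CombinatoricsR

namespace Crest.Agent.S0069

open Crest.Agent.H1.Bor

/-- The rotation matrix of a quaternion, as a point of `ℝ⁹`. -/
noncomputable def Phi (q : E4) : EuclideanSpace ℝ (Fin 9) :=
  !₂[q 0 ^ 2 + q 1 ^ 2 - q 2 ^ 2 - q 3 ^ 2, 2 * (q 1 * q 2 - q 0 * q 3), 2 * (q 1 * q 3 + q 0 * q 2),
    2 * (q 1 * q 2 + q 0 * q 3), q 0 ^ 2 - q 1 ^ 2 + q 2 ^ 2 - q 3 ^ 2, 2 * (q 2 * q 3 - q 0 * q 1),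
    2 * (q 1 * q 3 - q 0 * q 2), 2 * (q 2 * q 3 + q 0 * q 1), q 0 ^ 2 - q 1 ^ 2 - q 2 ^ 2 + q 3 ^ 2]

lemma Phi_neg (q : E4) : Phi (-q) = Phi q := by
  simp [Phi]

lemma Phi_dist (p q : S3) : dist (Phi p) (Phi q) ^ 2 = 8 * (1 - ip p q ^ 2) := by
  have hp : (p : E4) 0 ^ 2 + (p : E4) 1 ^ 2 + (p : E4) 2 ^ 2 + (p : E4) 3 ^ 2 = 1 := by
    have := EuclideanSpace.real_norm_sq_eq (p : E4)
    rw [nrm, Fin.sum_univ_four] at this
    linarith
  have hq : (q : E4) 0 ^ 2 + (q : E4) 1 ^ 2 + (q : E4) 2 ^ 2 + (q : E4) 3 ^ 2 = 1 := by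
    have := EuclideanSpace.real_norm_sq_eq (q : E4)
    rw [nrm, Fin.sum_univ_four] at this
    linarith
  have hi : ip p q = (p : E4) 0 * (q : E4) 0 + (p : E4) 1 * (q : E4) 1 + (p : E4) 2 * (q : E4) 2 +
      (p : E4) 3 * (q : E4) 3 := by
    simp [ip, PiLp.inner_apply, Fin.sum_univ_four, mul_comm]
  rw [dist_eq_norm, EuclideanSpace.real_norm_sq_eq, hi]
  simp only [Phi, Fin.sum_univ_succ, PiLp.sub_apply, Matrix.cons_val_zero, Matrix.cons_val_succ,
    Fin.sum_univ_zero]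
  generalize (p : E4) 0 = a at *
  generalize (p : E4) 1 = b at *
  generalize (p : E4) 2 = c at *
  generalize (p : E4) 3 = d at *
  generalize (q : E4) 0 = e at *
  generalize (q : E4) 1 = f at *
  generalize (q : E4) 2 = g at *
  generalize (q : E4) 3 = h at *
  linear_combination (3 * (a ^ 2 + b ^ 2 + c ^ 2 + d ^ 2) + 3 + 2 * (e ^ 2 + f ^ 2 + g ^ 2 + h ^ 2)) * hp +
    (3 * (e ^ 2 + f ^ 2 + g ^ 2 + h ^ 2) + 5) * hq

lemma Phi_dist_le (p q : S3) : dist (Phi p) (Phi q) ≤ √8 := by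
  apply Real.le_sqrt_of_sq_le
  rw [Phi_dist]
  nlinarith [sq_nonneg (ip p q)]

/-- Some bounded subset of nine-dimensional Euclidean space with at least two points cannot be split into ten parts of strictly smaller diameter: however its points are assigned to ten classes, some class has diameter at least that of the whole set. -/
theorem result :
    ∃ S : Set (EuclideanSpace ℝ (Fin 9)), Bornology.IsBounded S ∧ S.Nontrivial ∧
      ∀ c : EuclideanSpace ℝ (Fin 9) → Fin 10, ∃ i : Fin 10,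
        Metric.diam S ≤ Metric.diam (S ∩ c ⁻¹' {i}) := by
  set S : Set (EuclideanSpace ℝ (Fin 9)) := Set.range (fun p : S3 => Phi p) with hS
  have hle : ∀ x ∈ S, ∀ y ∈ S, dist x y ≤ √8 := by
    rintro _ ⟨p, rfl⟩ _ ⟨q, rfl⟩
    exact Phi_dist_le p q
  have hb : Bornology.IsBounded S := Metric.isBounded_iff.2 ⟨√8, fun x hx y hy => hle x hx y hy⟩
  refine ⟨S, hb, ⟨Phi (ev 0), ⟨ev 0, rfl⟩, Phi (ev 1), ⟨ev 1, rfl⟩, fun h => ?_⟩, fun c => ?_⟩
  · have := Phi_dist (ev 0) (ev 1)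
    rw [h, ip_ev 0 1 (by decide)] at this
    norm_num at this
  by_contra hc
  push Not at hc
  have h8 : Metric.diam S ≤ √8 := Metric.diam_le_of_forall_dist_le (by positivity) hle
  obtain ⟨i, hi⟩ := Finite.exists_max fun i : Fin 10 => Metric.diam (S ∩ c ⁻¹' {i})
  set D := Metric.diam (S ∩ c ⁻¹' {i}) with hD
  have hD0 : 0 ≤ D := Metric.diam_nonneg
  have hD8 : D ^ 2 < 8 := by
    have h1 : D < √8 := (hc i).trans_le h8
    have h2 := Real.sq_sqrt (by norm_num : (0 : ℝ) ≤ 8)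
    nlinarith
  refine no_colouring (ε := √(1 - D ^ 2 / 8)) (Real.sqrt_pos.2 (by linarith))
    (κ := fun p => c (Phi p)) (fun p => ?_) (fun p q h => ?_)
  · simp [Phi_neg]
  · have h1 : dist (Phi p) (Phi q) ≤ D :=
      (Metric.dist_le_diam_of_mem (hb.subset Set.inter_subset_left)
        (s := S ∩ c ⁻¹' {c (Phi q)}) ⟨⟨p, rfl⟩, h⟩ ⟨⟨q, rfl⟩, rfl⟩).trans (hi _)
    have h2 := Phi_dist p q
    have h3 := dist_nonneg (x := Phi p) (y := Phi q)
    rw [← Real.sqrt_sq_eq_abs]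
    exact Real.sqrt_le_sqrt (by nlinarith)

end Crest.Agent.S0069
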