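import Crest.Statements.S0085
import Crest.Agent.H2.GSMain

set_option autoImplicit false
open Crest Crest.CombinatoricsR

namespace Crest.Agent.S0085

open Crest.Agent.H2.GS

/-- For every real C > 0 there are a natural number n, a Boolean function f on the n-dimensional Boolean cube and a natural number d such that: f is non-constant; every Fourier–Walsh coefficient of f (values and inputs read as signs +1 for true and -1 for false, averaged over the uniform cube) indexed by a set of more than d coordinates vanishes, so f has degree at most d; and the sum of the n singleton Fourier–Walsh coefficients of f exceeds C times the square root of d. -/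
theorem result (C : ℝ) (hC : 0 < C) :
    ∃ n : ℕ, ∃ f : (Fin n → Bool) → Bool, ∃ d : ℕ,
      (∃ x y, f x ≠ f y) ∧
      (∀ S : Finset (Fin n), d < S.card →
        ∑ x : Fin n → Bool, ((if f x then (1 : ℝ) else -1) * ∏ i ∈ S, (if x i then (1 : ℝ) else -1)) = 0) ∧
      C * Real.sqrt d <
        ∑ i : Fin n, (∑ x : Fin n → Bool, ((if f x then (1 : ℝ) else -1) * (if x i then (1 : ℝ) else -1))) / 2 ^ n := by
  obtain ⟨ι, i1, i2, f, d, hd, hL⟩ := exists_bool C hC
  let e : ι ≃ Fin (Fintype.card ι) := Fintype.equivFin ι
  let E : (Fin (Fintype.card ι) → Bool) ≃ (ι → Bool) := Equiv.arrowCongr e.symm (Equiv.refl Bool)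
  have hE : ∀ x i, E x i = x (e i) := fun x i => rfl
  have hpos : 0 < av (fun x => sg (f x) * score x) := lt_of_le_of_lt (by positivity) hL
  refine ⟨Fintype.card ι, fun x => f (E x), d, ?_, ?_, ?_⟩
  · by_contra hn
    push Not at hn
    have : ∀ x, f x = f (fun _ => true) := fun x => by
      simpa using hn (E.symm x) (E.symm fun _ => true)
    simp only [this] at hpos
    rw [av_mul_left, av_score, mul_zero] at hpos
    exact lt_irrefl _ hpos
  · intro S hS
    have := hd (S.map e.symm.toEmbedding) (by simpa using hS)
    rw [← av_equiv E, av_eq_zero_iff_sum] at this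
    rw [← this]
    refine Finset.sum_congr rfl fun x _ => ?_
    simp [chi, sg, hE]
  · refine lt_of_lt_of_eq hL ?_
    rw [← av_equiv E, ← Finset.sum_div, Finset.sum_comm]
    unfold av
    congr 1
    · refine Finset.sum_congr rfl fun x _ => ?_
      rw [← Finset.mul_sum]
      unfold score
      simp only [hE]
      rw [Equiv.sum_comp e (fun i => sg (x i))]
      rfl
    · simp

end Crest.Agent.S0085
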