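import Crest.Statements.S0100
import Crest.Agent.Lead.UFMainB
import Crest.Agent.Lead.UFDesign
import Crest.Agent.H9.UFSlot
import Crest.Agent.H3.BaseFun
import Crest.Agent.H7.UFSmooth
import Crest.Agent.H4.UFRound

set_option autoImplicit false
open Crest Crest.AnalysisR

namespace Crest.Agent.S0100

/-- For every real `ε` with `0 < ε < 1` there is a threshold `N₀` such that for every integer `N ≥ N₀` one can choose signs `c 0, …, c (N-1)` in `{-1, 1}` so that the polynomial `∑ k, c k * z ^ k` has modulus between `(1 - ε) * √N` and `(1 + ε) * √N` at every complex number `z` of modulus one. -/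
theorem result (ε : ℝ) (hε : 0 < ε)
    (hε₁ : ε < 1) :
    ∃ N₀ : ℕ, ∀ N ≥ N₀, ∃ c : Fin N → ℤˣ, ∀ z : ℂ, ‖z‖ = 1 →
      (1 - ε) * Real.sqrt N ≤ ‖∑ k : Fin N, ((c k : ℤ) : ℂ) * z ^ (k : ℕ)‖ ∧
        ‖∑ k : Fin N, ((c k : ℤ) : ℂ) * z ^ (k : ℕ)‖ ≤ (1 + ε) * Real.sqrt N := by
  exact Crest.Agent.Lead.UF.ultraflat Crest.Agent.H4.UFR.rounding Crest.Agent.H7.UF.smoothing
    Crest.Agent.H7.UF.gluing Crest.Agent.H9.UF.firstDeriv Crest.Agent.H9.UF.vdc
    Crest.Agent.H9.UF.chirp Crest.Agent.H9.UF.slot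
    (Crest.Agent.Lead.UF.design Crest.Agent.H3.BaseFun.baseFun) ε hε

end Crest.Agent.S0100
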