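import Crest.Statements.S0170
import Crest.Agent.H2.BoxGeom

set_option autoImplicit false
open scoped ContDiff
open Crest.AnalysisR.BoxFlow
open Crest Crest.AnalysisR

namespace Crest.Agent.S0170

/-- Finitely many pairwise disjoint rational boxes in 3-space are carried onto disjoint target boxes, each a translated determinant-one positive diagonal rescaling of its source, by the time-one flow of a smooth, compactly supported, effective, divergence-free velocity field active only in [1/4,3/4]. The flow equals the prescribed affine map on a neighbourhood of each source box. Effective: computably approximable mixed derivatives at rational points and computable global derivative bounds. -/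
theorem result
    (n : ℕ) (a b h k : Fin n → Fin 3 → ℚ)
    (hh : ∀ i j, 0 < h i j) (hk : ∀ i j, 0 < k i j)
    (ha : Pairwise fun i i' => Disjoint (box (a i) (h i)) (box (a i') (h i')))
    (hb : Pairwise fun i i' => Disjoint (box (b i) (k i)) (box (b i') (k i')))
    (hvol : ∀ i, ∏ j : Fin 3, k i j / h i j = 1) :
    ∃ (U : Field) (Φ : ℝ → (Fin 3 → ℝ) → (Fin 3 → ℝ)),
      ContDiff ℝ ∞ U ∧ HasCompactSupport U ∧ Effective U ∧
      (∀ p : ℝ × (Fin 3 → ℝ), p.1 ∉ Set.Icc (1 / 4 : ℝ) (3 / 4) → U p = 0) ∧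
      (∀ p : ℝ × (Fin 3 → ℝ), spaceDiv U p = 0) ∧ IsFlow U Φ ∧
      ∀ i : Fin n, ∃ O : Set (Fin 3 → ℝ), IsOpen O ∧ box (a i) (h i) ⊆ O ∧
        ∀ x ∈ O, Φ 1 x = fun j => (b i j : ℝ) + ((k i j / h i j : ℚ) : ℝ) * (x j - (a i j : ℝ)) := by
  obtain ⟨U, hU, hdiv, h0, ht⟩ :=
    (Crest.Agent.H2.Box.ch_main n a b h k hh hk ha hb hvol).realize (1 / 4) (3 / 4) (by norm_num)
  have h0' : ∀ p : ℝ × (Fin 3 → ℝ), p.1 ∉ Set.Icc (1 / 4 : ℝ) (3 / 4) → U p = 0 := fun p hp => by
    apply h0
    rw [Set.mem_Icc, not_and_or, not_le, not_le] at hp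
    push_cast
    rcases hp with hp | hp
    · exact Or.inl hp.le
    · exact Or.inr hp.le
  choose γ hγ0 hγ using Crest.Agent.H2.Box.exists_traj hU.smooth hU.supp
    (fun p hp => h0' p fun hq => hp ⟨by linarith [hq.1], by linarith [hq.2]⟩)
  refine ⟨U, fun t x => γ x t, hU.smooth, hU.supp, hU.effective, h0', hdiv,
    ⟨hγ0, fun t x => hγ x t⟩, fun i => ?_⟩
  obtain ⟨O, hO, hK, hx⟩ := ht i
  refine ⟨O, hO, hK, fun x hxO => ?_⟩
  obtain ⟨δ, hδ, hδ0, hδ1⟩ := hx x hxO
  have := Crest.Agent.H2.Box.traj_unique hU.smooth hU.supp (hγ x) hδ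
    ((hγ0 x).trans (hδ0 0 (by norm_num)).symm)
  show γ x 1 = _
  rw [this]
  exact hδ1 1 (by norm_num)

end Crest.Agent.S0170
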