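import Crest.Statements.S0179
import Crest.Agent.H8.CrzHilb

set_option autoImplicit false
open Crest Crest.AnalysisR

namespace Crest.Agent.S0179

/-- Let A be a bounded operator on a complex Hilbert space H, m ≥ 0, and P(z) = ∑_{k ≤ d} z^k B_k a polynomial with m × m complex matrix coefficients. Suppose M bounds the operator norm (on Euclidean ℂ^m) of P(z) for every z in the numerical range {⟨x, A x⟩ : ‖x‖ = 1}. Then the operator P[A] = ∑_k A^k ⊗ B_k on H ⊗ ℂ^m, written in coordinates as (v_j)_{j<m} ↦ (∑_j ∑_k (B_k)_{ij} A^k v_j)_{i<m} with the ℓ²-norm of the component norms, satisfies ‖P[A] v‖ ≤ 2 M ‖v‖ for every v. -/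
theorem result
    {H : Type*} [NormedAddCommGroup H] [InnerProductSpace ℂ H] [CompleteSpace H]
    (A : H →L[ℂ] H) (m d : ℕ) (B : Fin (d + 1) → Matrix (Fin m) (Fin m) ℂ) (M : ℝ)
    (hM : ∀ x : H, ‖x‖ = 1 →
      ‖Matrix.toEuclideanCLM (n := Fin m) (𝕜 := ℂ)
          (∑ k : Fin (d + 1), (inner ℂ x (A x)) ^ (k : ℕ) • B k)‖ ≤ M)
    (v : PiLp 2 (fun _ : Fin m => H)) :
    ‖(WithLp.toLp 2 (fun i : Fin m => ∑ j : Fin m, ∑ k : Fin (d + 1), B k i j • (A ^ (k : ℕ)) (v j))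
        : PiLp 2 (fun _ : Fin m => H))‖ ≤ 2 * M * ‖v‖ := by
  exact Crest.Agent.H8.Crz.hilbert_bound A m d B M hM v

end Crest.Agent.S0179
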