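import Crest.Statements.S0181
import Crest.Agent.H4.CrzNorm

set_option autoImplicit false
open scoped ComplexOrder
open Crest.AnalysisR.NumRange
open Crest Crest.AnalysisR Crest.AnalysisR.NumRange

namespace Crest.Agent.S0181

/-- Setting of the optimal-metric statement; also G is holomorphic and injective on {t : r < ‖t‖} for some r < 1 with G({t : 1 < ‖t‖}) the complement of the closure of Ω, (H, κ²) is an optimal metric pair for f(A), and S ≽ 0 with S² = H. Then one continuous 2π-periodic positive semidefinite density Λ of mean I gives, for all m ≥ 1 and m × m matrix-valued v holomorphic near the closure of Ω, v[SAS⁻¹] = (1/2π) ∫ Λ(θ) ⊗ v(G(e^{iθ})) dθ entrywise, and ‖v[A]‖ ≤ κ sup ‖v‖ over the closure of Ω. -/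
theorem result
    (n : ℕ) (hn : 1 ≤ n) (A : Matrix (Fin n) (Fin n) ℂ)
    (Ω U : Set ℂ) (hΩ₁ : IsOpen Ω) (hΩ₂ : Bornology.IsBounded Ω) (hΩ₃ : Convex ℝ Ω)
    (hU : IsOpen U) (hΩU : closure Ω ⊆ U)
    (f : ℂ → ℂ) (hf₁ : DifferentiableOn ℂ f U) (hf₂ : Set.InjOn f U)
    (hf₃ : f '' Ω = Metric.ball 0 1)
    (G : ℂ → ℂ) (r : ℝ) (hr₁ : 0 < r) (hr₂ : r < 1)
    (hG₁ : DifferentiableOn ℂ G {t : ℂ | r < ‖t‖}) (hG₂ : Set.InjOn G {t : ℂ | r < ‖t‖})
    (hG₃ : G '' {t : ℂ | 1 < ‖t‖} = (closure Ω)ᶜ)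
    (hA : numRange A ⊆ Ω) (p : Polynomial ℂ) (hp : AgreesOnSpectrum A f p)
    (H : Matrix (Fin n) (Fin n) ℂ) (κsq : ℝ) (hH : IsOptimalMetric (Polynomial.aeval A p) H κsq)
    (S : Matrix (Fin n) (Fin n) ℂ) (hS₁ : S.PosSemidef) (hS₂ : S * S = H) :
    ∃ Λ : ℝ → Matrix (Fin n) (Fin n) ℂ, Continuous Λ ∧ Function.Periodic Λ (2 * Real.pi) ∧
      (∀ θ, (Λ θ).PosSemidef) ∧
      (∀ a b, (2 * Real.pi : ℂ)⁻¹ * (∫ θ in (0 : ℝ)..2 * Real.pi, Λ θ a b)
        = (1 : Matrix (Fin n) (Fin n) ℂ) a b) ∧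
      ∀ (m : ℕ), 1 ≤ m → ∀ (V : Set ℂ), IsOpen V → closure Ω ⊆ V →
        ∀ v : ℂ → Matrix (Fin m) (Fin m) ℂ, (∀ c d, DifferentiableOn ℂ (fun z => v z c d) V) →
        ∀ q : Fin m → Fin m → Polynomial ℂ,
          (∀ c d, AgreesOnSpectrum A (fun z => v z c d) (q c d)) →
          (∀ a b c d, Polynomial.aeval (S * A * S⁻¹) (q c d) a b =
              (2 * Real.pi : ℂ)⁻¹ * (∫ θ in (0 : ℝ)..2 * Real.pi,
                Λ θ a b * v (G (Complex.exp ((θ : ℂ) * Complex.I))) c d)) ∧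
          ∀ M : ℝ, (∀ z ∈ closure Ω, ‖Matrix.toEuclideanCLM (n := Fin m) (𝕜 := ℂ) (v z)‖ ≤ M) →
            ‖Matrix.toEuclideanCLM (n := Fin n × Fin m) (𝕜 := ℂ)
                (Matrix.of fun (i : Fin n × Fin m) (j : Fin n × Fin m) =>
                  Polynomial.aeval A (q i.2 j.2) i.1 j.1)‖ ≤ Real.sqrt κsq * M := by
  obtain ⟨⟨hH1, hH2, hH3⟩, -⟩ := hH
  have hne : Ω.Nonempty := by
    have : (0 : ℂ) ∈ f '' Ω := hf₃ ▸ Metric.mem_ball_self one_pos
    exact this.imp fun _ h => h.1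
  have hc : H4.Curve Ω G r := ⟨hΩ₁, hΩ₂, hΩ₃, hne, hr₁, hr₂, hG₁, hG₂, hG₃⟩
  have hSH : S.conjTranspose = S := hS₁.isHermitian.eq
  have hSu : IsUnit S.det := by
    have h1 : (1 + (H - 1)).PosDef := Matrix.PosDef.one.add_posSemidef hH1
    have h2 := (Matrix.isUnit_iff_isUnit_det _).1 h1.isUnit
    rw [add_sub_cancel, ← hS₂, Matrix.det_mul] at h2
    exact isUnit_of_mul_isUnit_left h2
  have hspec : spectrum ℂ (S * A * S⁻¹) = spectrum ℂ A := by
    ext μ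
    rw [Matrix.mem_spectrum_iff_isRoot_charpoly, Matrix.mem_spectrum_iff_isRoot_charpoly,
      Matrix.charpoly_mul_comm, Matrix.nonsing_inv_mul_cancel_left _ _ hSu]
  have hagree : ∀ (u : ℂ → ℂ) (a : Polynomial ℂ), AgreesOnSpectrum A u a →
      AgreesOnSpectrum (S * A * S⁻¹) u a := fun u a h μ hμ => h μ (hspec ▸ hμ)
  have hB : spectrum ℂ (S * A * S⁻¹) ⊆ Ω :=
    hspec ▸ (H4.spectrum_subset_numRange A).trans hA
  have hT : (1 - (Polynomial.aeval (S * A * S⁻¹) p).conjTranspose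
      * Polynomial.aeval (S * A * S⁻¹) p).PosSemidef := by
    have h1 := hH3.conjTranspose_mul_mul_same S⁻¹
    have h2 : Polynomial.aeval (S * A * S⁻¹) p = S * Polynomial.aeval A p * S⁻¹ := by
      rw [← H4.aeval_conj A S hSu, Matrix.mul_nonsing_inv_cancel_right _ _ hSu]
    rw [h2]
    convert h1 using 1
    rw [← hS₂, Matrix.conjTranspose_mul, Matrix.conjTranspose_mul,
      Matrix.conjTranspose_nonsing_inv, hSH]
    simp only [Matrix.mul_sub, Matrix.sub_mul, Matrix.mul_assoc,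
      Matrix.nonsing_inv_mul_cancel_left _ _ hSu, Matrix.mul_nonsing_inv _ hSu]
  obtain ⟨Λ, hΛc, hΛp, hΛ, hΛ1, hΛv⟩ :=
    H4.exists_density hc hn hB hU hΩU hf₁ hf₂ hf₃ (hagree f p hp) hT
  refine ⟨Λ, continuous_matrix hΛc, hΛp, hΛ, hΛ1, fun m hm V hV hΩV v hv q hq => ?_⟩
  have hrep : ∀ a b c d, H4.cmean (fun θ => Λ θ a b * v (G (H4.ct θ)) c d)
      = Polynomial.aeval (S * A * S⁻¹) (q c d) a b := fun a b c d =>
    hΛv V hV hΩV _ (hv c d) _ (hagree _ _ (hq c d)) a b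
  refine ⟨fun a b c d => (hrep a b c d).symm, fun M hM => ?_⟩
  have hM0 : 0 ≤ M := (norm_nonneg _).trans (hM _ (subset_closure hne.some_mem))
  set N : Matrix (Fin n × Fin m) (Fin n × Fin m) ℂ :=
    Matrix.of fun (i : Fin n × Fin m) (j : Fin n × Fin m) =>
      Polynomial.aeval A (q i.2 j.2) i.1 j.1 with hN
  set N' : Matrix (Fin n × Fin m) (Fin n × Fin m) ℂ :=
    Matrix.of fun (i : Fin n × Fin m) (j : Fin n × Fin m) =>
      Polynomial.aeval (S * A * S⁻¹) (q i.2 j.2) i.1 j.1 with hN'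
  set S' : Matrix (Fin n × Fin m) (Fin n × Fin m) ℂ :=
    Matrix.kroneckerMap (· * ·) S (1 : Matrix (Fin m) (Fin m) ℂ) with hS'
  have hcomm : S' * N = N' * S' := by
    ext ⟨a, c⟩ ⟨b, d⟩
    have := congrFun (congrFun (H4.aeval_conj A S hSu (q c d)) a) b
    rw [Matrix.mul_apply, Matrix.mul_apply] at this
    simp [hS', hN, hN', Matrix.mul_apply, Fintype.sum_prod_type, Matrix.one_apply, this]
  have hSS : S'.conjTranspose * S' = Matrix.kroneckerMap (· * ·) H (1 : Matrix (Fin m) (Fin m) ℂ) := by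
    rw [hS', Matrix.conjTranspose_kronecker, ← Matrix.mul_kronecker_mul, hSH, hS₂,
      Matrix.conjTranspose_one, Matrix.one_mul]
  have hlow : (S'.conjTranspose * S' - 1).PosSemidef := by
    have := hH1.kronecker (Matrix.PosSemidef.one (n := Fin m) (R := ℂ))
    convert! this using 1
    rw [hSS, ← Matrix.one_kronecker_one]
    ext i j
    simp only [Matrix.kroneckerMap_apply, Matrix.sub_apply, sub_mul]
  have hup : ((κsq : ℂ) • (1 : Matrix (Fin n × Fin m) (Fin n × Fin m) ℂ)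
      - S'.conjTranspose * S').PosSemidef := by
    have := hH2.kronecker (Matrix.PosSemidef.one (n := Fin m) (R := ℂ))
    convert! this using 1
    rw [hSS, ← Matrix.one_kronecker_one]
    ext i j
    simp only [Matrix.kroneckerMap_apply, Matrix.sub_apply, Matrix.smul_apply, smul_eq_mul,
      sub_mul, mul_assoc]
  refine ContinuousLinearMap.opNorm_le_bound _ (by positivity) fun x => ?_
  have h1 := H4.le_nsq_of_psd hlow (N.mulVec x.ofLp)
  have h2 := H4.nsq_le_of_density hΛc hΛ hΛ1 (w := fun θ => v (G (H4.ct θ)))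
    (fun c d => hc.continuous_comp (hv c d).continuousOn (Set.sdiff_subset.trans hΩV))
    (fun θ => H4.psd_of_norm_le (hM _ (hc.mem_closure (H4.norm_ct θ)))) (N := N')
    (fun i j => hrep i.1 j.1 i.2 j.2) (S'.mulVec x.ofLp)
  have h3 := H4.nsq_le_of_psd hup x.ofLp
  rw [Matrix.mulVec_mulVec, hcomm, ← Matrix.mulVec_mulVec] at h1
  have h4 : ‖Matrix.toEuclideanCLM (n := Fin n × Fin m) (𝕜 := ℂ) N x‖ ^ 2
      ≤ κsq * (M * ‖x‖) ^ 2 := by
    rw [H4.norm_sq_eq_nsq, mul_pow, H4.norm_sq_eq_nsq, Matrix.ofLp_toEuclideanCLM]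
    nlinarith [mul_le_mul_of_nonneg_left h3 (sq_nonneg M)]
  have h5 := Real.le_sqrt_of_sq_le h4
  rwa [Real.sqrt_mul' _ (sq_nonneg _), Real.sqrt_sq (by positivity), ← mul_assoc] at h5

end Crest.Agent.S0181
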