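import Crest.Statements.S0323
import Crest.Agent.H4.EdIter

set_option autoImplicit false
open Crest.GeometryTopology.EditDistance
open Crest Crest.GeometryTopology Crest.GeometryTopology.EditDistance

namespace Crest.Agent.H4.Ed

theorem main_bound (K : ℕ) (hK : 4096 ≤ K) : ∃ n : ℕ, n ≤ K ^ (21 * K ^ 2) ∧
    ∀ (f : List Bool → lp (fun _ : ℕ => ℝ) 1) (s D : ℝ), 0 < s →
      (∀ x y : List Bool, x.length = n → y.length = n → x ≠ y →
        s * (editDist x y : ℝ) ≤ ‖f x - f y‖ ∧ ‖f x - f y‖ ≤ D * s * (editDist x y : ℝ)) →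
      Real.exp (K * Real.log K / 2) ≤ D := by
  have hK0 : 0 < K := by omega
  have hpow : ∀ {a c : ℕ}, a ≤ c → K ^ a ≤ K ^ c := fun h => Nat.pow_le_pow_right hK0 h
  have h2 : ∀ a : ℕ, K ^ a ≤ 2 ^ (K * a) := fun a => by
    rw [pow_mul]; exact Nat.pow_le_pow_left Nat.lt_two_pow_self.le _
  set b := 2 * (2 * (2 * (K ^ 9) ^ K * (K ^ 9) ^ K)) * K ^ K with hb
  have hb' : b = 8 * K ^ (19 * K) := by rw [hb]; ring
  have hb0 : 0 < b := by rw [hb']; positivity
  have hb4 : b * (4 * K ^ 3) ≤ K ^ (20 * K) := by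
    calc b * (4 * K ^ 3) = 32 * K ^ (19 * K + 3) := by rw [hb']; ring
      _ ≤ K * K ^ (19 * K + 3) := Nat.mul_le_mul_right _ (by omega)
      _ = K ^ (19 * K + 4) := by ring
      _ ≤ _ := hpow (by omega)
  have hbr : b ≤ 2 ^ (K ^ 3) := by
    calc b ≤ b * (4 * K ^ 3) := Nat.le_mul_of_pos_right _ (by positivity)
      _ ≤ 2 ^ (K * (20 * K)) := hb4.trans (h2 _)
      _ ≤ _ := Nat.pow_le_pow_right (by norm_num) (by
        calc K * (20 * K) ≤ K * (K * K) :=
              Nat.mul_le_mul_left _ (Nat.mul_le_mul_right _ (by omega))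
          _ = K ^ 3 := by ring)
  obtain ⟨g⟩ := Gad.iter (r₀ := K ^ 3) (b := b) (w := K) (J := 2 * (2 * (K ^ 9) ^ K * (K ^ 9) ^ K))
    (P := K ^ 9) (K := K) (N := 2 * (K ^ 9) ^ K) (fun i => Nat.nth Nat.Prime (i + 1))
    (by positivity) hK0 (by positivity) (fun i => (Nat.prime_nth_prime _).two_le)
    (fun i hi => by
      refine (nth_prime_le (i + 1) (K * (4 * K ^ 3) + 1) (by omega)).trans ?_
      have a1 : K * (4 * K ^ 3) + 1 ≤ 5 * K ^ 4 := by
        have : 0 < K ^ 4 := by positivity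
        have e : K * (4 * K ^ 3) = 4 * K ^ 4 := by ring
        omega
      calc (K * (4 * K ^ 3) + 1) ^ 2 * 4 ≤ (5 * K ^ 4) ^ 2 * 4 :=
            Nat.mul_le_mul_right _ (Nat.pow_le_pow_left a1 _)
        _ = 100 * K ^ 8 := by ring
        _ ≤ K * K ^ 8 := Nat.mul_le_mul_right _ (by omega)
        _ = K ^ 9 := by ring)
    (fun i j hij => (Nat.coprime_primes (Nat.prime_nth_prime _) (Nat.prime_nth_prime _)).2
      fun h => hij (by simpa using Nat.nth_injective Nat.infinite_setOf_prime h))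
    hbr le_rfl le_rfl K le_rfl 2 (by norm_num)
    (fun i _ => (Nat.coprime_primes Nat.prime_two (Nat.prime_nth_prime _)).2 fun h => by
      have := Nat.add_two_le_nth_prime (i + 1)
      omega) le_rfl
  have hL : 2 * (14 * K ^ 2) + 3 ≤ K ^ 3 := by
    have e : K ^ 3 = K * K ^ 2 := by ring
    have : 1 ≤ K ^ 2 := Nat.one_le_pow _ _ hK0
    have : 4096 * K ^ 2 ≤ K * K ^ 2 := Nat.mul_le_mul_right _ hK
    omega
  refine ⟨(b * (4 * K ^ 3)) ^ K * (2 * (14 * K ^ 2) + 3), ?_, fun f s D hs hf => ?_⟩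
  · calc _ ≤ (K ^ (20 * K)) ^ K * K ^ 3 := Nat.mul_le_mul (Nat.pow_le_pow_left hb4 _) hL
      _ = K ^ (20 * K ^ 2 + 3) := by rw [← pow_mul, ← pow_add]; congr 1; ring
      _ ≤ _ := hpow (by nlinarith)
  have hB : 2 * (K ^ 9 * (4 * K ^ 3)) ^ K ≤ 2 ^ (14 * K ^ 2) := by
    have a1 : K ^ 9 * (4 * K ^ 3) ≤ K ^ 13 := by
      calc K ^ 9 * (4 * K ^ 3) = 4 * K ^ 12 := by ring
        _ ≤ K * K ^ 12 := Nat.mul_le_mul_right _ (by omega)
        _ = K ^ 13 := by ring
    calc 2 * (K ^ 9 * (4 * K ^ 3)) ^ K ≤ K * (K ^ 13) ^ K :=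
          Nat.mul_le_mul (by omega) (Nat.pow_le_pow_left a1 _)
      _ = K ^ (13 * K + 1) := by ring
      _ ≤ K ^ (14 * K) := hpow (by omega)
      _ ≤ 2 ^ (K * (14 * K)) := h2 _
      _ = _ := by congr 1; ring
  have h := g.distortion hB (by positivity) f s D hs hf
  have hK1 : (4096 : ℝ) ≤ K := by exact_mod_cast hK
  have hKp : (0 : ℝ) < K := by linarith
  have hT : (0 : ℝ) < ((b : ℝ) * K ^ 3) ^ K := by
    have : (0 : ℝ) < b := by exact_mod_cast hb0
    positivity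
  have hL' : (2 * ((14 * K ^ 2 : ℕ) : ℝ) + 3) ≤ (K : ℝ) ^ 3 := by exact_mod_cast hL
  set L : ℝ := 2 * ((14 * K ^ 2 : ℕ) : ℝ) + 3 with hLdef
  have hL0 : 0 < L := by positivity
  have h3 : 1 ≤ 16 * L ^ 2 * (8 / K) ^ K * D := by
    refine le_of_mul_le_mul_left ?_ hT
    have e : ((8 : ℝ) / K) ^ K * ((b : ℝ) * K ^ 3) ^ K =
        (2 / K) ^ K * ((b : ℝ) * (4 * K ^ 3)) ^ K := by
      rw [← mul_pow, ← mul_pow]; congr 1; ring
    push_cast at h
    calc _ = ((b : ℝ) * K ^ 3) ^ K := mul_one _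
      _ ≤ _ := h
      _ = 16 * L ^ 2 * D * ((2 / K) ^ K * ((b : ℝ) * (4 * K ^ 3)) ^ K) := by ring
      _ = _ := by rw [← e]; ring
  have hD : 0 < D := by
    by_contra hD
    have : 16 * L ^ 2 * (8 / K) ^ K * D ≤ 0 :=
      mul_nonpos_of_nonneg_of_nonpos (by positivity) (not_lt.1 hD)
    linarith
  have h4 : 1 ≤ (K : ℝ) ^ 7 * (8 / K) ^ K * D := by
    refine h3.trans (mul_le_mul_of_nonneg_right (mul_le_mul_of_nonneg_right ?_ (by positivity))
      hD.le)
    calc 16 * L ^ 2 ≤ K * ((K : ℝ) ^ 3) ^ 2 := by gcongr; linarith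
      _ = _ := by ring
  have h5 := Real.log_nonneg h4
  rw [Real.log_mul (by positivity) hD.ne', Real.log_mul (by positivity) (by positivity),
    Real.log_pow, Real.log_pow, Real.log_div (by norm_num) hKp.ne'] at h5
  have h6 : 4 * Real.log 8 ≤ Real.log K := by
    have : Real.log ((8 : ℝ) ^ 4) ≤ Real.log K := Real.log_le_log (by norm_num) (by linarith)
    rwa [Real.log_pow] at this
  have h7 : 0 ≤ Real.log K := Real.log_nonneg (by linarith)
  rw [← Real.le_log_iff_exp_le hD]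
  push_cast at h5
  nlinarith [mul_le_mul_of_nonneg_left h6 hKp.le, mul_le_mul_of_nonneg_right hK1 h7]

theorem sqrt_bound (K d : ℕ) (hK : 4096 ≤ K) (hd : 2 ≤ d) (h : d < (K + 1) ^ (21 * (K + 1) ^ 2)) :
    Real.sqrt (Real.log d * Real.log (Real.log d)) ≤ 32 * (K * Real.log K) := by
  have hK1 : (4096 : ℝ) ≤ K := by exact_mod_cast hK
  have hKp : (0 : ℝ) < K := by linarith
  have hd1 : (2 : ℝ) ≤ d := by exact_mod_cast hd
  have h7 : 0 ≤ Real.log K := Real.log_nonneg (by linarith)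
  have hl0 : 0 < Real.log d := Real.log_pos (by linarith)
  have h1 : Real.log d ≤ 256 * K ^ 2 * Real.log K := by
    have a2 : Real.log d ≤ 21 * ((K : ℝ) + 1) ^ 2 * Real.log ((K : ℝ) + 1) := by
      generalize hE : 21 * (K + 1) ^ 2 = E at h
      have a0 : (21 * ((K : ℝ) + 1) ^ 2) = E := by exact_mod_cast hE
      have a1 : (d : ℝ) ≤ ((K : ℝ) + 1) ^ E := by exact_mod_cast h.le
      rw [a0, ← Real.log_pow]
      exact Real.log_le_log (by linarith only [hd1]) a1
    clear h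
    have a3 : Real.log ((K : ℝ) + 1) ≤ 2 * Real.log K := by
      have : Real.log ((K : ℝ) + 1) ≤ Real.log ((K : ℝ) ^ 2) :=
        Real.log_le_log (by linarith only [hKp]) (by nlinarith only [hK1])
      rwa [Real.log_pow] at this
    have a4 : 0 ≤ Real.log ((K : ℝ) + 1) := Real.log_nonneg (by linarith)
    calc _ ≤ _ := a2
      _ ≤ (128 * (K : ℝ) ^ 2) * (2 * Real.log K) :=
        mul_le_mul (by nlinarith only [hK1]) a3 a4 (by positivity)
      _ = _ := by ring
  clear h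
  have h2 : Real.log (Real.log d) ≤ 4 * Real.log K := by
    have a1 : Real.log K ≤ K := (Real.log_le_sub_one_of_pos hKp).trans (by linarith)
    have a2 : Real.log d ≤ (K : ℝ) ^ 4 := by
      calc _ ≤ _ := h1
        _ ≤ K * (K : ℝ) ^ 2 * K := by gcongr; linarith
        _ = _ := by ring
    have := Real.log_le_log hl0 a2
    rwa [Real.log_pow] at this
  rw [Real.sqrt_le_left (by positivity)]
  calc Real.log d * Real.log (Real.log d) ≤ Real.log d * (4 * Real.log K) :=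
        mul_le_mul_of_nonneg_left h2 hl0.le
    _ ≤ (256 * K ^ 2 * Real.log K) * (4 * Real.log K) :=
        mul_le_mul_of_nonneg_right h1 (by positivity)
    _ = _ := by ring

end Crest.Agent.H4.Ed

namespace Crest.Agent.S0323

/-- There are constants `c > 0` and `d₀` such that for every `d ≥ d₀` some length `n ≤ d` has the following property: any map `f` from binary words into real `ℓ¹` that, after a common rescaling `s > 0`, satisfies `s · ed(x,y) ≤ ‖f x - f y‖ ≤ D · s · ed(x,y)` for all distinct binary words `x`, `y` of length exactly `n`, has `D ≥ exp (c √(log d · log log d))`. Here `ed` is unit-cost edit distance (insertions, deletions, substitutions, intermediate words of any length). -/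
theorem result :
    ∃ c : ℝ, 0 < c ∧ ∃ d₀ : ℕ, ∀ d : ℕ, d₀ ≤ d → ∃ n : ℕ, n ≤ d ∧
      ∀ (f : List Bool → lp (fun _ : ℕ => ℝ) 1) (s D : ℝ), 0 < s →
        (∀ x y : List Bool, x.length = n → y.length = n → x ≠ y →
          s * (editDist x y : ℝ) ≤ ‖f x - f y‖ ∧ ‖f x - f y‖ ≤ D * s * (editDist x y : ℝ)) →
        Real.exp (c * Real.sqrt (Real.log d * Real.log (Real.log d))) ≤ D := by
  obtain ⟨K₀, hK₀⟩ : ∃ K₀ : ℕ, 4096 ≤ K₀ := ⟨_, le_rfl⟩
  have hle : ∀ K : ℕ, 0 < K → K ≤ K ^ (21 * K ^ 2) := fun K hK =>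
    Nat.le_self_pow (by positivity) K
  refine ⟨1 / 64, by norm_num, K₀ ^ (21 * K₀ ^ 2), fun d hd => ?_⟩
  have hK₀d : K₀ ≤ d := (hle K₀ (by omega)).trans hd
  set K := Nat.findGreatest (fun K => K ^ (21 * K ^ 2) ≤ d) d with hKdef
  have h1 : K₀ ≤ K := Nat.le_findGreatest (P := fun K => K ^ (21 * K ^ 2) ≤ d) hK₀d hd
  have h2 : K ^ (21 * K ^ 2) ≤ d :=
    Nat.findGreatest_spec (P := fun K => K ^ (21 * K ^ 2) ≤ d) hK₀d hd
  have h3 : d < (K + 1) ^ (21 * (K + 1) ^ 2) := by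
    by_cases h : K + 1 ≤ d
    · exact not_le.1 (Nat.findGreatest_is_greatest (P := fun K => K ^ (21 * K ^ 2) ≤ d)
        (Nat.lt_succ_self K) h)
    · exact lt_of_lt_of_le (not_le.1 h) (hle _ (by omega))
  obtain ⟨n, hn, hf⟩ := Crest.Agent.H4.Ed.main_bound K (hK₀.trans h1)
  refine ⟨n, hn.trans h2, fun f s D hs h => le_trans (Real.exp_le_exp.2 ?_) (hf f s D hs h)⟩
  have := Crest.Agent.H4.Ed.sqrt_bound K d (hK₀.trans h1) (by omega) h3
  linarith

end Crest.Agent.S0323
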