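import Crest.Statements.S0370
import Crest.Agent.H4.PfxTri
import Crest.Agent.H4.PfxMix
import Crest.Agent.H4.PfxKacz

set_option autoImplicit false
open Crest Crest.GeometryTopology

namespace Crest.Agent.S0370

/-- There is an absolute constant `C` such that, in every dimension `d`, every finite sequence of vectors of Euclidean norm at most one in `ℝ^d` admits one choice of signs `±1` under which every signed prefix sum has Euclidean norm at most `C * √d`. -/
theorem result :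
    ∃ C : ℝ, ∀ (d N : ℕ) (v : Fin N → EuclideanSpace ℝ (Fin d)),
      (∀ i, ‖v i‖ ≤ 1) →
      ∃ ε : Fin N → ℤ, (∀ i, ε i = 1 ∨ ε i = -1) ∧
        ∀ k : ℕ, k ≤ N →
          ‖∑ i ∈ Finset.univ.filter (fun i : Fin N => (i : ℕ) < k), (ε i : ℝ) • v i‖ ≤ C * Real.sqrt d := by
  classical
  obtain ⟨Q, hQ⟩ : ∃ Q : ℝ, Q = 440 * 60000 ^ 2 * 4247 * 1000000 := ⟨_, rfl⟩
  have hQ0 : 0 ≤ Q := by rw [hQ]; positivity
  refine ⟨√Q + 1, fun d n v hv => ?_⟩
  rcases Nat.eq_zero_or_pos d with rfl | hd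
  · refine ⟨fun _ => 1, fun _ => Or.inl rfl, fun k _ => ?_⟩
    rw [Subsingleton.elim (∑ i ∈ _, _) (0 : EuclideanSpace ℝ (Fin 0))]
    simp
  have hdr : (1 : ℝ) ≤ d := by exact_mod_cast hd
  have hsd : 1 ≤ √(d : ℝ) := Real.one_le_sqrt.2 hdr
  rcases Nat.eq_zero_or_pos n with rfl | hn
  · refine ⟨fun _ => 1, fun _ => Or.inl rfl, fun k _ => ?_⟩
    simp only [Finset.univ_eq_empty, Finset.filter_empty, Finset.sum_empty, norm_zero]
    positivity
  obtain ⟨pos, ζ, c, hpos, hcol, hfac, hHS, hc0, hc2, hNN⟩ :=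
    H4.Pfx.kacz d n v hv (θ := 1 / 1000000) (by norm_num) (by norm_num)
  obtain ⟨Λ, _, K, f, hK, hsym, hFS, hs, hn1, hen, hcube, hρ⟩ :=
    H4.Pfx.good_state hn pos hpos ζ (D := d / (1 / 1000000))
      (by rw [le_div_iff₀ (by norm_num)]; linarith) hcol hfac hHS
  obtain ⟨N, hN⟩ : ∃ N : ℕ, N = 60000 * (n + 1) ^ 2 := ⟨_, rfl⟩
  have hN1 : 1 ≤ N := by rw [hN]; exact Nat.succ_le_of_lt (by positivity)
  obtain ⟨δ, hδ⟩ : ∃ δ : ℝ, δ = 1 / (4 * N) := ⟨_, rfl⟩
  have hnr : (0 : ℝ) ≤ n := by positivity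
  have hδ0 : 0 < δ := by rw [hδ]; positivity
  have hδ1 : δ * (240000 * ((n : ℝ) + 1) ^ 2) = 1 := by
    rw [hδ, hN]; push_cast; field_simp; norm_num
  set C : Fin n → Fin n → ℤ := fun i k => ⌊6 * c i k / δ⌋ with hC
  have hC0 : ∀ i k, k ≤ i → C i k = 0 := fun i k h => by simp [hC, hc0 i k h]
  have hCe : ∀ i k, |(C i k : ℝ) * δ - 6 * c i k| ≤ δ := by
    intro i k
    have h1 := Int.floor_le (6 * c i k / δ)
    have h2 := Int.lt_floor_add_one (6 * c i k / δ)
    rw [le_div_iff₀ hδ0] at h1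
    rw [div_lt_iff₀ hδ0] at h2
    rw [abs_le]
    constructor <;> linarith
  set L : Matrix (Fin n) (Fin n) ℝ :=
    Matrix.of fun j i => (if j = i then 1 else 0) - (C i j : ℝ) * δ / 6 with hL
  have hdet : L.det = 1 := by
    rw [Matrix.det_of_lowerTriangular L]
    · exact Finset.prod_eq_one fun i _ => by simp [hL, hC0 i i le_rfl]
    · intro i j hij
      have hij' : i < j := hij
      simp [hL, hC0 j i hij'.le, hij'.ne]
  have hunit : IsUnit L.det := by rw [hdet]; exact isUnit_one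
  set dd : Fin n → Fin n → ℝ := fun j => L⁻¹.mulVec (Pi.single j 1) with hdd
  have hdir : ∀ i, (6 : ℝ) • dd i - ∑ k, ((C i k : ℝ) * δ) • dd k
      = (6 : ℝ) • (Pi.single i 1 : Fin n → ℝ) := by
    intro i
    have h1 : (6 : ℝ) • (Pi.single i 1 : Fin n → ℝ)
        - ∑ k, ((C i k : ℝ) * δ) • (Pi.single k 1 : Fin n → ℝ)
        = L.mulVec ((6 : ℝ) • (Pi.single i 1 : Fin n → ℝ)) := by
      ext j
      rw [Matrix.mulVec_smul, Matrix.mulVec_single_one]
      simp only [Pi.sub_apply, Pi.smul_apply, Finset.sum_apply, Pi.single_apply, smul_eq_mul,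
        mul_ite, mul_one, mul_zero, Finset.sum_ite_eq, Finset.mem_univ, if_true, hL,
        Matrix.col_apply, Matrix.of_apply]
      split_ifs <;> ring
    calc _ = L⁻¹.mulVec ((6 : ℝ) • (Pi.single i 1 : Fin n → ℝ)
          - ∑ k, ((C i k : ℝ) * δ) • (Pi.single k 1 : Fin n → ℝ)) := by
          rw [Matrix.mulVec_sub, Matrix.mulVec_sum]
          simp only [Matrix.mulVec_smul, hdd]
      _ = _ := by
          rw [h1, Matrix.mulVec_mulVec, Matrix.nonsing_inv_mul _ hunit, Matrix.one_mulVec]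
  obtain ⟨ε, hε, x, hx, hsum⟩ := H4.Pfx.tri N hN1 n dd C Λ K f hC0 hK hsym hFS hs hn1 (by
    intro i
    rw [← hδ, hdir i]
    have h1 : ∑ k, ((C i k : ℝ) * δ) ^ 2 ≤ ∑ k, (72 * c i k ^ 2 + 2 * δ ^ 2) := by
      refine Finset.sum_le_sum fun k _ => ?_
      have h2 : ((C i k : ℝ) * δ - 6 * c i k) ^ 2 ≤ δ ^ 2 := by
        rw [← sq_abs]; exact pow_le_pow_left₀ (abs_nonneg _) (hCe i k) 2
      nlinarith [sq_nonneg ((C i k : ℝ) * δ - 12 * c i k)]
    rw [Finset.sum_add_distrib, ← Finset.mul_sum, Finset.sum_const, Finset.card_univ,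
      Fintype.card_fin, nsmul_eq_mul] at h1
    have h3 : (n : ℝ) * δ ≤ 1 / 240000 := by nlinarith
    have h4 : δ ≤ 1 / 240000 := by
      nlinarith [mul_nonneg hδ0.le hnr, mul_nonneg hδ0.le (sq_nonneg (n : ℝ))]
    have h5 : (n : ℝ) * δ * δ ≤ 1 / 240000 * (1 / 240000) :=
      mul_le_mul h3 h4 hδ0.le (by norm_num)
    have := hen i
    have := hc2 i
    nlinarith)
  refine ⟨ε, hε, fun k hk => ?_⟩
  rcases k with _ | k
  · simp only [not_lt_zero', Finset.filter_false, Finset.sum_empty, norm_zero]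
    positivity
  set t : Fin n := ⟨k, hk⟩ with ht
  set y : Fin n → ℝ := ∑ i, (ε i : ℝ) • dd i with hy
  have hLy : ∀ j, (ε j : ℝ) = y j - ∑ i, (C i j : ℝ) * δ / 6 * y i := by
    intro j
    have h1 : L.mulVec y = fun j => (ε j : ℝ) := by
      rw [hy, Matrix.mulVec_sum]
      simp only [Matrix.mulVec_smul, hdd, Matrix.mulVec_mulVec, Matrix.mul_nonsing_inv _ hunit,
        Matrix.one_mulVec]
      ext j
      simp [Finset.sum_apply, Pi.single_apply]
    have h2 := congrFun h1 j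
    rw [← h2]
    simp [hL, Matrix.mulVec, dotProduct, sub_mul, Finset.sum_sub_distrib]
  have hp0 : ∀ l, 0 ≤ H4.Pfx.nrm (f l) := fun l => H4.Pfx.nrm_nonneg _
  have hyb : ∀ i, |y i| ≤ 60000 := by
    intro i
    rw [hsum, Finset.sum_apply]
    refine (Finset.abs_sum_le_sum_abs _ _).trans ?_
    calc ∑ l, |(H4.Pfx.nrm (f l) • x l) i| ≤ ∑ l, H4.Pfx.nrm (f l) * 60000 := by
          refine Finset.sum_le_sum fun l _ => ?_
          rw [Pi.smul_apply, smul_eq_mul, abs_mul, abs_of_nonneg (hp0 l)]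
          by_cases h : H4.Pfx.nrm (f l) = 0
          · simp [h]
          · exact mul_le_mul_of_nonneg_left (hcube l _ (hx l h) i) (hp0 l)
      _ = 60000 := by rw [← Finset.sum_mul, hn1, one_mul]
  let A : (Fin n → ℝ) →ₗ[ℝ] EuclideanSpace ℝ (Fin d) := ∑ j, if j ≤ t then
    (LinearMap.proj j - ∑ i, c i j • LinearMap.proj i :
      (Fin n → ℝ) →ₗ[ℝ] ℝ).smulRight (v j) else 0
  have hA : ∀ z, A z = ∑ j, (if j ≤ t then (z j - ∑ i, c i j * z i) • v j else 0) := by
    intro z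
    simp only [A, LinearMap.sum_apply]
    refine Finset.sum_congr rfl fun j _ => ?_
    split_ifs <;> simp [LinearMap.sum_apply]
  obtain ⟨ρ, hρ1, hρ2⟩ := hρ t
  have hAy : ‖A y‖ ≤ √Q * √(d : ℝ) := by
    rw [← Real.sqrt_mul hQ0]
    refine Real.le_sqrt_of_sq_le ?_
    have h1 : ‖A y‖ ≤ ∑ l, H4.Pfx.nrm (f l) * ‖A (x l)‖ := by
      rw [hsum, map_sum]
      refine (norm_sum_le _ _).trans (le_of_eq (Finset.sum_congr rfl fun l _ => ?_))
      rw [map_smul, norm_smul, Real.norm_of_nonneg (hp0 l)]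
    refine (pow_le_pow_left₀ (norm_nonneg _) h1 2).trans ?_
    refine (Finset.sum_sq_le_sum_mul_sum_of_sq_le_mul Finset.univ
      (f := fun l => H4.Pfx.nrm (f l)) (g := fun l => H4.Pfx.nrm (f l) * ‖A (x l)‖ ^ 2)
      (fun l _ => hp0 l) (fun l _ => mul_nonneg (hp0 l) (sq_nonneg _))
      (fun l _ => le_of_eq (by ring))).trans ?_
    rw [hn1, one_mul]
    refine le_trans (Finset.sum_le_sum fun l _ => ?_) (hρ2.trans (le_of_eq (by rw [hQ]; ring)))
    by_cases h : H4.Pfx.nrm (f l) = 0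
    · simp [h]
    · rw [hA, hNN]
      exact mul_le_mul_of_nonneg_left (hρ1 l _ (hx l h)) (hp0 l)
  have hsplit : ∑ i ∈ Finset.univ.filter (fun i : Fin n => (i : ℕ) < k + 1), (ε i : ℝ) • v i
      = A y + ∑ j, (if j ≤ t then (∑ i, (c i j - (C i j : ℝ) * δ / 6) * y i) • v j else 0) := by
    rw [hA, ← Finset.sum_add_distrib, Finset.sum_filter]
    refine Finset.sum_congr rfl fun j _ => ?_
    have : (j : ℕ) < k + 1 ↔ j ≤ t := Nat.lt_succ_iff
    by_cases h : j ≤ t
    · rw [if_pos (this.2 h), if_pos h, if_pos h, ← add_smul, hLy j]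
      congr 1
      simp only [sub_mul, Finset.sum_sub_distrib]
      ring
    · rw [if_neg (fun h' => h (this.1 h')), if_neg h, if_neg h, add_zero]
  have herr : ‖∑ j, (if j ≤ t then (∑ i, (c i j - (C i j : ℝ) * δ / 6) * y i) • v j else 0)‖
      ≤ 1 := by
    refine (norm_sum_le _ _).trans ?_
    calc _ ≤ ∑ _j : Fin n, (n : ℝ) * (δ * 10000) := by
          refine Finset.sum_le_sum fun j _ => ?_
          split_ifs
          · rw [norm_smul, Real.norm_eq_abs]
            refine (mul_le_of_le_one_right (abs_nonneg _) (hv j)).trans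
              ((Finset.abs_sum_le_sum_abs _ _).trans ?_)
            calc _ ≤ ∑ _i : Fin n, δ * 10000 := by
                  refine Finset.sum_le_sum fun i _ => ?_
                  rw [abs_mul]
                  have h1 : |c i j - (C i j : ℝ) * δ / 6| ≤ δ / 6 := by
                    have := abs_le.1 (hCe i j)
                    rw [abs_le]; constructor <;> linarith
                  calc _ ≤ δ / 6 * 60000 := mul_le_mul h1 (hyb i) (abs_nonneg _) (by positivity)
                    _ = _ := by ring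
              _ = _ := by simp
          · rw [norm_zero]; positivity
      _ = (n : ℝ) * (n * (δ * 10000)) := by simp
      _ ≤ 1 := by nlinarith
  rw [hsplit]
  refine (norm_add_le _ _).trans ?_
  nlinarith

end Crest.Agent.S0370
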