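import Crest.Statements.S0501
import Crest.Agent.H9.LCFinal

set_option autoImplicit false
open Crest Crest.LogicCS

namespace Crest.Agent.S0501

/-- For some constant C and threshold N₀ and every n ≥ N₀, some exact complex linear circuit (each gate adds or subtracts two available values or multiplies one by an arbitrary fixed complex scalar; the inputs and the constant 0 are available at the start; every gate counts one) computes the unnormalized discrete Fourier transform of order n on every complex input vector with at most C · n · (log n)^θ · (log log n)^(4 − θ) gates, where θ = log_m (m − Δ/2^71), m = 10^6, Δ = 6871402692000000. -/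
theorem result :
    ∃ C : ℝ, ∃ N₀ : ℕ, ∀ n ≥ N₀, ∃ P : Crest.FourierCircuit.LinCircuit n,
      P.Computes (Crest.FourierCircuit.dftMatrix n) ∧
        (P.size : ℝ) ≤ C * n * Real.log n ^ Crest.FourierCircuit.savingExponent *
          Real.log (Real.log n) ^ (4 - Crest.FourierCircuit.savingExponent) := by
  obtain ⟨C, hC, h⟩ := Crest.Agent.H9.FC.dft_main
  refine ⟨C, 2 ^ 27, fun n hn => ?_⟩
  obtain ⟨P, hP, hs⟩ := Crest.Agent.H9.FC.exists_circuit _ _ (h n hn)
  refine ⟨P, hP, hs.trans ?_⟩
  have h1 : (3 : ℝ) ≤ Real.log n := by
    have e1 : Real.log (2 ^ 27) ≤ Real.log n :=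
      Real.log_le_log (by positivity) (by exact_mod_cast hn)
    rw [Real.log_pow] at e1
    have := Real.log_two_gt_d9
    push_cast at e1
    linarith
  have h2 : 1 ≤ Real.log (Real.log n) := by
    rw [Real.le_log_iff_exp_le (by linarith)]
    have := Real.exp_one_lt_d9
    linarith
  have h3 : 1 ≤ Real.log (Real.log n) ^ (4 - Crest.FourierCircuit.savingExponent) :=
    Real.one_le_rpow h2 (by linarith [Crest.Agent.H9.FC.saving_le])
  have h4 : 0 ≤ C * n * Real.log n ^ Crest.FourierCircuit.savingExponent :=
    mul_nonneg (by positivity) (Real.rpow_nonneg (by linarith) _)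
  nlinarith

end Crest.Agent.S0501
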